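import Vale.Agent.P092.L.H553.Final
import Vale.Agent.P092.H432.Nu
import Vale.Agent.P092.H432.EFam
import Vale.Agent.P092.H820.Icc

/-!
P092, stages (L) and (S) (helper776): `L(Λ)` is not a corner of `M_ι(L(Γ))` if `Γ` is a lattice of
`SL_3(ℝ)` (or a subgroup of finite index of `SL_3(ℤ)`) and `Λ` is clustered.
-/

set_option linter.all false

open scoped InnerProductSpace
open Filter Topology ContinuousLinearMap MeasureTheory

namespace Vale.Agent.P092.L.H776

open Vale.Agent.P092.H160 Vale.Agent.P092.H200 Vale.Agent.P092.H432 Vale.Agent.P092.L.H553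
open Vale.Agent.P092.H377 (SL3R)

/-- No amplified frame. -/
theorem no_aframe (G : Type) [Group G] [Emb G]
    (hICC : ∀ g : G, g ≠ 1 → Set.Infinite {y : G | ∃ h, y = h * g * h⁻¹}) (hNS : NoState G)
    {Λ ι : Type} [Group Λ] [Fintype ι] {t : ℝ} {R : Λ → (Ell2 (G × ι) →L[ℂ] Ell2 (G × ι))}
    (hR : AFrame t R) (hΛ : Clustered Λ) : False := by
  classical
  haveI : Countable G := L.H538.countable_emb G
  obtain ⟨E, hE⟩ := exists_efam hR.toARep
  exact Vale.Agent.P092.H714.contraA hR.toARep (geoA_emb (G3 := G))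
    (fun K hK ε hε => L.H538.propA_row hR.toARep hE K hK hε)
    (H432.invTr hICC hR) (noInvA_emb hNS) hΛ

/-- No corner isomorphism. -/
theorem no_corner (G : Type) [Group G] [Emb G]
    (hICC : ∀ g : G, g ≠ 1 → Set.Infinite {y : G | ∃ h, y = h * g * h⁻¹}) (hNS : NoState G)
    {Λ ι : Type} [Group Λ] [Fintype ι] (hΛ : Clustered Λ)
    (θ : LG Λ →⋆ₙₐ[ℂ] Matrix ι ι (LG G)) : ¬ H820.CornerIso θ := by
  intro h
  obtain ⟨t, -, R, hR⟩ := H820.exists_aframe' hICC h
  exact no_aframe G hICC hNS hR hΛ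

end Vale.Agent.P092.L.H776
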