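import Vale.Agent.P092.L.H776.ClusA
import Vale.Agent.P092.H19.ShB
import Vale.Agent.P092.H553.Final

/-!
P092, stages (L) and (S) (helper776): the elementary form of the statement.
-/

set_option linter.all false

open scoped InnerProductSpace
open Filter Topology ContinuousLinearMap MeasureTheory

namespace Vale.Agent.P092.L.H776

open Vale.Agent.P092.H160 Vale.Agent.P092.H200 Vale.Agent.P092.H432 Vale.Agent.P092.L.H553
open Vale.Agent.P092.H377 (SL3R)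
open Vale.Agent.P092.H655 (SLR IsLat)

/-- The elementary form. -/
theorem no_st (G : Type) [Group G] [Emb G]
    (hICC : ∀ g : G, g ≠ 1 → Set.Infinite {y : G | ∃ h, y = h * g * h⁻¹}) (hNS : NoState G)
    (Λ : Type) [Group Λ] (hΛ : Clustered Λ) (k : ℕ) (p : H103.St.MOp k G)
    (hp : H103.St.IsProj p) : IsEmpty (H103.St.CornerIso Λ G k p) := by
  refine ⟨fun c => ?_⟩
  obtain ⟨t, R, hR⟩ := H19.aframe_of_iso hp c (Or.inl hICC)
  exact no_aframe G hICC hNS hR hΛ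

/-- Lattices of `SL_3(ℝ)`. -/
theorem no_st_lattice (Γ : Subgroup (SLR 3)) (hΓ : IsLat 3 Γ) (Λ : Type) [Group Λ]
    (hΛ : Clustered Λ) (k : ℕ) (p : H103.St.MOp k Γ) (hp : H103.St.IsProj p) :
    IsEmpty (H103.St.CornerIso Λ Γ k p) := by
  haveI := hΓ.disc
  obtain ⟨μ, h1, h2, h3⟩ := hΓ.covol
  let _ : MeasurableSpace (SL3R ⧸ Γ) := borel _
  haveI : BorelSpace (SL3R ⧸ Γ) := ⟨rfl⟩
  haveI : IsFiniteMeasure μ := ⟨h2⟩
  haveI : SMulInvariantMeasure SL3R (SL3R ⧸ Γ) μ := ⟨fun g s hs => h3 g s hs⟩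
  exact @no_st Γ _ (embDisc Γ) (icc_lattice Γ μ h1) (noState_lattice Γ μ h1) Λ _ hΛ k p hp

/-- Subgroups of finite index of `SL_3(ℤ)`. -/
theorem no_st_fi (Γ : Subgroup (Matrix.SpecialLinearGroup (Fin 3) ℤ)) [Γ.FiniteIndex]
    (Λ : Type) [Group Λ] (hΛ : Clustered Λ) (k : ℕ) (p : H103.St.MOp k Γ)
    (hp : H103.St.IsProj p) : IsEmpty (H103.St.CornerIso Λ Γ k p) :=
  @no_st Γ _ (embZ Γ) (Vale.Agent.P092.H160.icc_of_fi (n := 3) (by norm_num) Γ
    (Vale.Agent.P092.H553.no_neg_one Γ)) (noState_fi Γ) Λ _ hΛ k p hp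

end Vale.Agent.P092.L.H776
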